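import Vale.Agent.P241.Final.Weyl
import Vale.Agent.P241.BD.Defs
import Vale.Agent.P241.KR.Defs
import Vale.Agent.P241.H251.Growth
import Vale.Agent.P251.St.OfFunctor

/-!
# P241: the geometric middle: the stage lemma from Claim T, the cone step and the Young step

* `RkLe K X n`, `EvGe K X n` : `K_* X` has rank `≤ n`, has at least `n` basis elements of even
  degree.
* `GoodMap S K t f β β'` : `f : P⁺ → Q⁺` is a map like `m v_t^N : B_d → Σ^{-N'} B_{d+c}`.
* `SkelMap`, `ConeG`, `YoungG`, `WeylGFC`, `TpFC`, `RkEx` : the inputs.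
* `stageLemma_of` : the stage lemma.
-/

open CategoryTheory MonoidalCategory OnePoint Pointwise
open Vale.Agent.P251 Vale.Agent.P251.St Vale.Agent.P251.St.SHCat Vale.Agent.P241.St

noncomputable section

namespace Vale.Agent.P241.H132

open Final H137

/-! ### Ranks -/

section Ranks

variable {T : SHCat}

/-- `K_* X` has rank `≤ n` -/
def RkLe (K : RingA T) (X : T.C) (n : ℕ) : Prop :=
  ∃ (m : ℕ) (_ : KR.KBasis K.obj X (Fin m)), m ≤ n

/-- `K_* X` has at least `n` basis elements of even degree -/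
def EvGe (K : RingA T) (X : T.C) (n : ℕ) : Prop :=
  ∃ (m : ℕ) (b : KR.KBasis K.obj X (Fin m)), n ≤ b.ev

theorem RkLe.mono {K : RingA T} {X : T.C} {n m : ℕ} (h : RkLe K X n) (hnm : n ≤ m) :
    RkLe K X m := by
  obtain ⟨k, b, hk⟩ := h
  exact ⟨k, b, hk.trans hnm⟩

theorem EvGe.mono {K : RingA T} {X : T.C} {n m : ℕ} (h : EvGe K X n) (hnm : m ≤ n) :
    EvGe K X m := by
  obtain ⟨k, b, hk⟩ := h
  exact ⟨k, b, hnm.trans hk⟩

theorem rkLe_zero {K : RingA T} {X : T.C} (h : Acyclic K.obj X) : RkLe K X 0 := by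
  have h0 : ∀ {A : T.C} (f : A ⟶ K.obj ⊗ X), f = 0 := fun f => by
    have h1 : 𝟙 (K.obj ⊗ X) = 0 := h
    rw [← Category.comp_id f, h1, Limits.comp_zero]
  refine ⟨0, ⟨fun i => i.elim0, fun i => i.elim0, fun j => ⟨fun c c' _ => ?_, fun y => ?_⟩⟩, le_rfl⟩
  · funext i
    exact i.elim0
  · exact ⟨fun i => i.elim0, (h0 _).trans (h0 y).symm⟩

/-- `K_* X` has a basis with `n` elements, in degrees of the parity of `ε`. -/
def BasisPar (K : RingA T) (X : T.C) (ε : ℤ) (n : ℕ) : Prop :=
  ∃ b : KR.KBasis K.obj X (Fin n), ∀ i, Even (b.e i + ε)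

end Ranks

/-! ### Products of maps -/

/-- the map `v ∧ 1 : (P × B)⁺ → (Q × B)⁺` -/
def timesR {P Q : Space} (v : Map P Q) (B : Space) : Map (P.prod B) (Q.prod B) :=
  ofHom (toHom v ▷ toLC B)

theorem timesR_smash {P Q : Space} (v : Map P Q) (B : Space) (x : P.Pt) (b : B.Pt) :
    (timesR v B).toFun (smash x b) = smash (v.toFun x) b :=
  G.LC.app_whiskerRight_smash (toHom v) (toLC B) x b

/-- composition of maps -/
def compM {P Q R : Space} (f : Map P Q) (g : Map Q R) : Map P R :=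
  ⟨g.toFun ∘ f.toFun, g.cont.comp f.cont, by
    rw [Function.comp_apply, f.map_infty, g.map_infty]⟩

/-! ### The inputs -/

section Props

variable {T : SHCat} (S : Susp T)

/-- `f : P⁺ → Q⁺` behaves like `m v_t^N : B_d → Σ^{-N'} B_{d+c}`: the `K(j)`-homologies of `P`, `Q`
are free of rank `β`, `β'` for all `j`, all in degrees of the same parity, and `f` is injective on
`K(t)`-homology. -/
structure GoodMap (K : ℕ → RingA T) (t : ℕ) {P Q : Space} (f : Map P Q) (β β' : ℕ) : Prop where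
  fcP : FC P
  fcQ : FC Q
  bases : ∃ ε : ℤ, ∀ j, BasisPar (K j) (S.obj P) ε β ∧ BasisPar (K j) (S.obj Q) ε β'
  inj : ∀ (m : ℤ) (x : sphere T m ⟶ (K t).obj ⊗ S.obj P), x ≫ (K t).obj ◁ S.map f = 0 → x = 0

/-- **BD.** Let `v : (ℝ^a)⁺ → C⁺` be a representative of `m v_t^N`. There is a number `c` such that
for all `d` there are `B`, `Q` and `μ : (C × B)⁺ → Q⁺` such that `μ ∘ (v ∧ 1) : (ℝ^a × B)⁺ → Q⁺` is
a good map; the ranks are the numbers of cells of the skeleta of `MU` in dimension `2d` and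
`2(d + c)`. -/
def SkelMap (p : ℕ) (VV : ∀ (_t a : ℕ) (C : Space), Map (Rn a) C → Prop) : Prop :=
  ∀ K : ℕ → RingA T, (∀ i, IsMoravaK S p i (K i)) → ∀ (t a : ℕ) (C : Space) (v : Map (Rn a) C),
    FC C → VV t a C v → ∃ c : ℕ, ∀ d : ℕ, ∃ (B Q : Space) (μ : Map (C.prod B) Q),
      GoodMap S K t (compM (timesR v B) μ) (BD.pc d) (BD.pc (d + c))

/-- **The cone step.** -/
def ConeG (p : ℕ) : Prop :=
  ∀ K : ℕ → RingA T, (∀ i, IsMoravaK S p i (K i)) → ∀ (G : Type) [Group G] [Finite G]
    (A : Subgroup G) (X : GSpace G), GFC G X → ∀ (t k : ℕ) (P Q : Space) (f : Map P Q)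
    (β β' : ℕ), GoodMap S K t f β β' → BForm (weyl X A) k f →
    ∃ Z : GSpace G, GFC G Z ∧
      (∀ B : Subgroup G, ¬ SubConj B A → ∀ j,
        (Acyclic (K j).obj (S.obj (X.fix B)) → Acyclic (K j).obj (S.obj (Z.fix B))) ∧
        (¬ Acyclic (K j).obj (S.obj (X.fix B)) → EvGe (K j) (S.obj (Z.fix B)) (min β β'))) ∧
      (∀ j, Acyclic (K j).obj (S.obj (X.fix A)) → Acyclic (K j).obj (S.obj (Z.fix A))) ∧
      (∀ ρ, RkLe (K t) (S.obj ((X.fix A).prod (tp (Weyl A) (Weyl A) k).und)) ρ →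
        RkLe (K t) (S.obj (Z.fix A)) (ρ * (β' - β)))

/-- **The Young step.** -/
def YoungG (p : ℕ) : Prop :=
  ∀ K : ℕ → RingA T, (∀ i, IsMoravaK S p i (K i)) → ∀ (G : Type) [Group G] [Finite G]
    (Z : GSpace G), GFC G Z → ∀ r : ℕ, ∃ Y : GSpace G, GFC G Y ∧ ∀ (V : Subgroup G) (j : ℕ),
      (∀ ε, 2 * ε + 1 ≤ r → RkLe (K j) (S.obj (Z.fix V)) ε →
        Acyclic (K j).obj (S.obj (Y.fix V))) ∧
      (EvGe (K j) (S.obj (Z.fix V)) r → ¬ Acyclic (K j).obj (S.obj (Y.fix V)))

/-- `X^A` is a finite `W`-cell space. -/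
def WeylGFC : Prop :=
  ∀ (G : Type) [Group G] [Finite G] (X : GSpace G), GFC G X → ∀ A : Subgroup G,
    GFC (Weyl A) (weyl X A)

/-- The powers of the star are finite cell spaces. -/
def TpFC : Prop :=
  ∀ (W : Type) [Group W] [Finite W] (k : ℕ), FC (tp W W k).und

/-- The Morava `K`-theory of a finite cell space has finite rank. -/
def RkEx (p : ℕ) : Prop :=
  ∀ K : ℕ → RingA T, (∀ i, IsMoravaK S p i (K i)) → ∀ (X : Space), FC X → ∀ j,
    ∃ n, RkLe (K j) (S.obj X) n

end Props

/-! ### The `b`-form of a composite -/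

section Comp

variable {W : Type} [Group W] [Finite W]

/-- **The `b`-form of a composite.** -/
theorem BForm.compose {X : GSpace W} {k : ℕ} {P C B Q : Space} {v : Map P C} (h : BForm X k v)
    (μ : Map (C.prod B) Q) : BForm X k (compM (timesR v B) μ) := by
  obtain ⟨b, hb, hb0⟩ := h
  let X1 : Space := (X.prod (tp W W (k + 1))).und
  let X2 : Space := (X.prod (tp W W k)).und
  -- `X1 × (P × B) → (X1 × P) × B → (X2 × C) × B → X2 × (C × B) → X2 × Q`
  let b' : toLC (X1.prod (P.prod B)) ⟶ toLC (X2.prod Q) :=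
    (α_ (toLC X1) (toLC P) (toLC B)).inv ≫ (toHom (X := X1.prod P) (Y := X2.prod C) b) ▷ toLC B ≫
      (α_ (toLC X2) (toLC C) (toLC B)).hom ≫ toLC X2 ◁ toHom μ
  have key : ∀ (x : X1.Pt) (y : P.Pt) (z : B.Pt) (x2 : X2.Pt) (c : C.Pt),
      b.toFun (smash (X := X1) (Y := P) x y) = smash (X := X2) (Y := C) x2 c →
      G.LC.app b' (smash (X := X1) (Y := P.prod B) x (smash y z)) =
        smash (X := X2) (Y := Q) x2 (μ.toFun (smash c z)) := by
    intro x y z x2 c h
    calc G.LC.app b' (G.LC.smash x (G.LC.smash y z))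
        = G.LC.app (toLC X2 ◁ toHom μ) (G.LC.app (α_ (toLC X2) (toLC C) (toLC B)).hom
            (G.LC.app ((toHom (X := X1.prod P) (Y := X2.prod C) b) ▷ toLC B)
              (G.LC.app (α_ (toLC X1) (toLC P) (toLC B)).inv
                (G.LC.smash x (G.LC.smash y z))))) := rfl
      _ = smash (X := X2) (Y := Q) x2 (μ.toFun (smash c z)) := by
        rw [G.LC.app_associator_inv_smash, G.LC.app_whiskerRight_smash]
        have h1 : G.LC.app (toHom (X := X1.prod P) (Y := X2.prod C) b) (G.LC.smash x y) =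
            G.LC.smash x2 c := h
        rw [h1, G.LC.app_associator_smash, G.LC.app_whiskerLeft_smash]
        rfl
  have keyinf : ∀ (x : X1.Pt) (y : P.Pt) (z : B.Pt),
      b.toFun (smash (X := X1) (Y := P) x y) = ∞ →
      G.LC.app b' (smash (X := X1) (Y := P.prod B) x (smash y z)) = ∞ := by
    intro x y z h
    rw [key x y z ∞ ∞ (h.trans rfl)]
    rfl
  refine ⟨⟨G.LC.app b', G.LC.continuous_app b', G.LC.app_infty b'⟩, ?_, ?_⟩
  · intro g q
    induction q using OnePoint.rec with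
    | infty => exact G.LC.app_infty b'
    | coe q =>
      obtain ⟨x, y, z⟩ := q
      have hg := hb g (smash (X := X1) (Y := P) (x : X1.Pt) (y : P.Pt))
      change b.toFun (smash (X := X1) (Y := P) ((g • x : (X.prod (tp W W (k + 1))).carrier) :
        X1.Pt) (y : P.Pt)) = _ at hg
      change G.LC.app b' (smash (X := X1) (Y := P.prod B)
        ((g • x : (X.prod (tp W W (k + 1))).carrier) : X1.Pt) (smash (y : P.Pt) (z : B.Pt))) =
        GSpace.smul ((X.prod (tp W W k)).prod (GSpace.triv W Q)) g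
          (G.LC.app b' (smash (X := X1) (Y := P.prod B) (x : X1.Pt) (smash (y : P.Pt) (z : B.Pt))))
      rcases hq : b.toFun (smash (X := X1) (Y := P) (x : X1.Pt) (y : P.Pt)) with _ | ⟨x2, (c : C.carrier)⟩
      · rw [hq] at hg
        rw [keyinf _ _ _ hq, keyinf _ _ _ hg]
        rfl
      · rw [hq] at hg
        have h2 : b.toFun (smash (X := X1) (Y := P) (x : X1.Pt) (y : P.Pt)) =
          smash (X := X2) (Y := C) (x2 : X2.Pt) (c : C.Pt) := hq
        have h3 : b.toFun (smash (X := X1) (Y := P)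
            ((g • x : (X.prod (tp W W (k + 1))).carrier) : X1.Pt) (y : P.Pt)) =
          smash (X := X2) (Y := C) ((g • x2 : (X.prod (tp W W k)).carrier) : X2.Pt) (c : C.Pt) := hg
        rw [key _ _ _ _ _ h2, key _ _ _ _ _ h3]
        generalize μ.toFun (smash (c : C.Pt) (z : B.Pt)) = w
        induction w using OnePoint.rec with
        | infty => rfl
        | coe w => rfl
  · intro x y
    induction y using OnePoint.rec with
    | infty =>
      change G.LC.app b' _ = smash (X := X2) (Y := Q) _ ((compM (timesR v B) μ).toFun ∞)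
      rw [(compM (timesR v B) μ).map_infty]
      exact G.LC.app_infty b'
    | coe y =>
      obtain ⟨y, z⟩ := y
      have h1 := key _ (y : P.Pt) (z : B.Pt) _ _ (hb0 x (y : P.Pt))
      refine h1.trans ?_
      change _ = smash (X := X2) (Y := Q) _
        (μ.toFun ((timesR v B).toFun (smash (y : P.Pt) (z : B.Pt))))
      rw [timesR_smash]

end Comp

/-! ### The fixed points of `X^A` -/

section FixWeyl

variable {G : Type} [Group G] (X : GSpace G) (A : Subgroup G) (V : Subgroup (Weyl A))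

theorem mem_fix_ofWeyl (x : MulAction.fixedPoints A X.carrier)
    (hx : ∀ v : V, (v : Weyl A) • (show (weyl X A).carrier from x) = x) :
    (x : X.carrier) ∈ MulAction.fixedPoints (ofWeyl A V) X.carrier := by
  rw [MulAction.mem_fixedPoints]
  rintro ⟨b, hb⟩
  obtain ⟨h1, h2⟩ := mem_ofWeyl.1 hb
  have h3 := hx ⟨_, h2⟩
  have h4 := congrArg (fun y : (weyl X A).carrier =>
    ((show MulAction.fixedPoints A X.carrier from y) : X.carrier)) h3
  exact h4

theorem mem_fix_of_ofWeyl {x : X.carrier}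
    (hx : x ∈ MulAction.fixedPoints (ofWeyl A V) X.carrier) :
    x ∈ MulAction.fixedPoints A X.carrier := by
  rw [MulAction.mem_fixedPoints] at hx ⊢
  rintro ⟨a, ha⟩
  exact hx ⟨a, le_ofWeyl A V ha⟩

/-- `(X^A)^V = X^B`, `B` the preimage of `V` in `N(A)`. -/
def fixWeyl : ((weyl X A).fix V).carrier ≃ₜ (X.fix (ofWeyl A V)).carrier where
  toFun x := ⟨(show MulAction.fixedPoints A X.carrier from x.1).1,
    mem_fix_ofWeyl X A V x.1 fun v => x.2 v⟩
  invFun y := ⟨(show (weyl X A).carrier from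
    (⟨y.1, mem_fix_of_ofWeyl X A V y.2⟩ : MulAction.fixedPoints A X.carrier)), by
      have hy := y.2
      rw [MulAction.mem_fixedPoints] at hy ⊢
      rintro ⟨v, hv⟩
      obtain ⟨n, rfl⟩ := QuotientGroup.mk'_surjective (A.subgroupOf (NA A)) v
      exact Subtype.ext (hy ⟨n, mem_ofWeyl.2 ⟨n.2, hv⟩⟩)⟩
  left_inv _ := rfl
  right_inv _ := rfl
  continuous_toFun := by
    have h1 : Continuous fun x : ((weyl X A).fix V).carrier => x.1 := continuous_subtype_val
    have h2 : Continuous fun x : MulAction.fixedPoints A X.carrier => (x : X.carrier) :=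
      continuous_subtype_val
    exact continuous_induced_rng.2 (h2.comp h1)
  continuous_invFun := continuous_induced_rng.2 (continuous_induced_rng.2 continuous_subtype_val)

end FixWeyl

/-! ### The stage lemma -/

section Main

variable {T : SHCat} (S : Susp T) {p : ℕ}

theorem nearVan_weyl (hF : FixFC) (hW : WeylGFC) {K : ℕ → RingA T} {G : Type} [Group G]
    [Finite G] {A : Subgroup G} {t : ℕ} {X : GCx G} (h : StageHyp (Van S K) relRank A t X) :
    NearVan S K t (weyl X.1 A) := by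
  intro V hV hab j hj
  have h1 : Van S K j X (ofWeyl A V) := by
    refine h (ofWeyl A V) (lt_ofWeyl hV) (ofWeyl_le A V) ?_ j ?_
    · intro x hx y hy
      obtain ⟨hx1, hx2⟩ := mem_ofWeyl.1 hx
      obtain ⟨hy1, hy2⟩ := mem_ofWeyl.1 hy
      have h2 := hab _ hx2 _ hy2
      have h3 : QuotientGroup.mk' (A.subgroupOf (NA A))
          (⟨x, hx1⟩ * ⟨y, hy1⟩ * (⟨x, hx1⟩ : NA A)⁻¹ * (⟨y, hy1⟩ : NA A)⁻¹) = 1 := by
        rw [map_mul, map_mul, map_mul, map_inv, map_inv, h2]
        group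
      rw [QuotientGroup.mk'_apply, QuotientGroup.eq_one_iff] at h3
      exact h3
    · refine le_trans (Nat.add_le_add_left ?_ j) hj
      obtain ⟨s, hs1, hs2⟩ := Group.rank_spec V
      classical
      have hsurj := toWeyl_surjective A V
      choose f hf using hsurj
      let s' : Finset G := s.image fun v => (f v : G)
      refine (relRank_le s' ?_).trans (Finset.card_image_le.trans hs1.le)
      refine le_antisymm ?_ (sup_le (le_ofWeyl A V) ?_)
      · intro x hx
        have hx' : toWeyl A V ⟨x, hx⟩ ∈ Subgroup.closure (s : Set V) := by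
          rw [hs2]
          exact Subgroup.mem_top _
        -- the subgroup of `V` of the classes of elements of the right hand side
        let U : Subgroup G := A ⊔ Subgroup.closure (s' : Set G)
        let U' : Subgroup V := (U.subgroupOf (ofWeyl A V)).map (toWeyl A V)
        have h4 : Subgroup.closure (s : Set V) ≤ U' := by
          rw [Subgroup.closure_le]
          intro v hv
          refine ⟨f v, ?_, hf v⟩
          change (f v : G) ∈ U
          exact (le_sup_right : Subgroup.closure (s' : Set G) ≤ U)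
            (Subgroup.subset_closure (Finset.mem_coe.2 (Finset.mem_image_of_mem _ hv)))
        obtain ⟨y, hy, hyx⟩ := h4 hx'
        have h5 : y⁻¹ * ⟨x, hx⟩ ∈ (toWeyl A V).ker := by
          rw [MonoidHom.mem_ker, map_mul, map_inv, hyx, inv_mul_cancel]
        rw [ker_toWeyl, Subgroup.mem_subgroupOf] at h5
        have h6 : ((y⁻¹ * ⟨x, hx⟩ : ofWeyl A V) : G) ∈ U := (le_sup_left : A ≤ U) h5
        have h7 : (y : G) ∈ U := hy
        have h8 := U.mul_mem h7 h6
        simpa using h8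
      · rw [Subgroup.closure_le]
        intro x hx
        obtain ⟨v, _, rfl⟩ := Finset.mem_image.1 (Finset.mem_coe.1 hx)
        exact (f v).2
  exact acyclic_of_maps S (hF G X.1 X.2 _) (hF _ (weyl X.1 A) (hW G X.1 X.2 A) V)
    (mapOfHomeo (X := X.1.fix (ofWeyl A V)) (Y := (weyl X.1 A).fix V) (fixWeyl X.1 A V).symm)
    (mapOfHomeo (fixWeyl X.1 A V))
    (mapOfHomeo_comp (X := X.1.fix (ofWeyl A V)) (Y := (weyl X.1 A).fix V)
      (fixWeyl X.1 A V).symm) h1

/-- **The stage lemma** from Claim T, the skeleta of `MU`, the cone step and the Young step. -/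
theorem stageLemma_of {VV : ∀ (_t a : ℕ) (C : Space), Map (Rn a) C → Prop} (hF : FixFC)
    (hW : WeylGFC) (hTp : TpFC) (hR : RkEx S p) (key : Key S p VV) (skel : SkelMap S p VV)
    (cone : ConeG S p) (young : YoungG S p) : StageLemma S p := by
  intro K hK G _ _ hG A hA t X hX hyp
  have hWp : IsPGroup p (Weyl A) := (hG.to_subgroup (NA A)).to_quotient _
  obtain ⟨k, a, C, v, hC, hv, hb⟩ := key K hK (Weyl A) hWp (weyl X.1 A) (hW G X.1 X.2 A) t
    (nearVan_weyl S hF hW hyp)
  obtain ⟨c, hc⟩ := skel K hK t a C v hC hv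
  obtain ⟨ρ, hρ⟩ := hR K hK ((X.1.fix A).prod (tp (Weyl A) (Weyl A) k).und)
    (fc_prod (hF G X.1 X.2 A) (hTp (Weyl A) k)) t
  obtain ⟨d, -, hd⟩ := H251.exists_growth c ρ 0
  obtain ⟨B, Q, μ, hgood⟩ := hc d
  obtain ⟨Z, hZ, h1, h2, h3⟩ := cone K hK G A X.1 X.2 t k _ Q _ _ _ hgood (BForm.compose hb μ)
  obtain ⟨Y, hY, h4⟩ := young K hK G Z hZ (BD.pc d)
  have hpc : ∀ n, BD.pc n = H251.pc n := fun _ => rfl
  have hpos : 1 ≤ BD.pc d := H251.pc_pos d
  have hmin : min (BD.pc d) (BD.pc (d + c)) = BD.pc d :=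
    min_eq_left (H251.monotone_pc (Nat.le_add_right d c))
  refine ⟨⟨Y, hY⟩, ?_, ?_⟩
  · intro j hj
    rcases Nat.lt_succ_iff_lt_or_eq.1 hj with hj | rfl
    · exact (h4 A j).1 0 (by simpa using hpos) (rkLe_zero (h2 j (hX j hj)))
    · refine (h4 A j).1 (ρ * (BD.pc (d + c) - BD.pc d)) ?_ (h3 ρ hρ)
      rw [hpc, hpc]
      exact hd
  · intro B hB j
    constructor
    · intro hYB
      by_contra hXB
      exact (h4 B j).2 (hmin ▸ (h1 B hB j).2 hXB) hYB
    · intro hXB
      exact (h4 B j).1 0 (by simpa using hpos) (rkLe_zero ((h1 B hB j).1 hXB))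

end Main

end Vale.Agent.P241.H132
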