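import Vale.Agent.P241.H132.KeyOf
import Vale.Agent.P241.H40.Claim2
import Vale.Agent.P241.H40.NearRes
import Vale.Agent.P241.H933.PolarPB
import Vale.Agent.P241.H302.EulNull
import Vale.Agent.P241.R.VV
import Vale.Agent.P241.H56.SharpFinal
import Vale.Agent.P241.EUL.T3

/-!
# P241: Claim T

* `bForm_rn` : the `b`-form for a map with source `ℝ^a`.
* `mem_tensor_CC` : the class is closed under the product with `ℂ^ι`.
* `eulStar_of` : the input `EulStar` from `H302.eulNull`.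
* `key_of` : Claim T from its remaining inputs.
-/

open CategoryTheory MonoidalCategory OnePoint Topology Vale.Agent.P251.St Vale.Agent.P251.St.SHCat
  Vale.Agent.P251.G Vale.Agent.P251.G.LC Vale.Agent.P241.St Vale.Agent.P241.H808

noncomputable section

namespace Vale.Agent.P241.H132

open Final R

variable {T : SHCat} {S : Susp T} {p : ℕ}

/-- The `b`-form for a map with source `ℝ^a`. -/
theorem bForm_rn (X : Ctx S) {t : ℕ} {W : Type} [Group W] [Finite W] {Y : GSpace W} {k : ℕ}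
    {A C : Space} {v : Map A C} (hv : VV X p t v) (hb : BForm Y k v) :
    ∃ (k a : ℕ) (C : Space) (v : Map (Rn a) C), FC C ∧ VV X p t v ∧ BForm Y k v := by
  obtain ⟨a, ⟨f⟩⟩ := hv.1
  refine ⟨k, a, C, compM (homeoMap (X := Rn a) (Y := A) f.symm) v, hv.2.1, ?_, ?_⟩
  · exact VV.homeo hv (A' := Rn a) f.symm _ fun _ => rfl
  · exact bForm_precomp hb (homeoMap (X := Rn a) (Y := A) f.symm) _ fun _ => rfl

/-- `ℂ^ι` is homeomorphic to `ℝ^n`. -/
theorem exists_homeo_complex (ι : Type) [Fintype ι] :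
    ∃ n : ℕ, Nonempty ((ι → ℂ) ≃ₜ (Fin n → ℝ)) := by
  let e1 : (ι → ℂ) ≃L[ℝ] (Fin (Module.finrank ℝ (ι → ℂ)) → ℝ) :=
    ContinuousLinearEquiv.ofFinrankEq (by simp)
  exact ⟨_, ⟨e1.toHomeomorph⟩⟩

/-- the product with the identity of `ℂ^ι` -/
theorem mem_tensor_CC (hp : p.Prime) (X : Ctx S) {t a : ℕ} {C : Space} (v : Map (Rn a) C)
    (hv : VV X p t v) (ι : Type) [Fintype ι] :
    (tclass X p t hp).mem (toHom v ⊗ₘ 𝟙 (Th.CC ι)) := by
  obtain ⟨n, ⟨f⟩⟩ := exists_homeo_complex ι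
  refine hv.prod hp (VV.ident (A := ofLC (Th.CC ι)) hp.ne_one f
    (ofHom (X := ofLC (Th.CC ι)) (Y := ofLC (Th.CC ι)) (𝟙 _))
    fun a => ?_) _ fun a a' => ?_
  · exact app_id (Th.CC ι) a
  · exact app_tensorHom_smash (toHom v) (𝟙 (Th.CC ι)) a a'

/-- The representations of a `p`-group `W` with characters `χ k ≠ 1` map to products of stars. -/
def RepLe (p : ℕ) [Fact p.Prime] : Prop :=
  ∀ (W : Type) [Group W] [Finite W], IsPGroup p W → ∀ (κ : Type) [Fintype κ] [DecidableEq κ]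
    (χ : κ → (W →* rootsOfUnity p ℂ)), (∀ k, χ k ≠ 1) →
      ∃ l : List (Subgroup W), (∀ B ∈ l, B ≠ ⊤) ∧
        H40.Le (H302.repPB (H46.diagRep χ)) (H40.plist (l.map H40.starQ))

/-- The input `EulStar` of Claim T. -/
theorem eulStar_of [hp : Fact p.Prime] (X : Ctx S) (hN : NilStmt S p X) {t : ℕ}
    (hLin : H302.LinStage X p t) (hRep : RepLe p) (K : ℕ → RingA T)
    (hK : ∀ i, IsMoravaK S p i (K i)) :
    H40.EulStar (tclass X p t hp.out) (H40.HypT S p K t) := by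
  intro W _ _ _ Y hY
  obtain ⟨hW, hYG, hvan⟩ := hY
  refine H302.eulNull X hN (EUL.t3Prop p X.o) hLin (tclass X p t hp.out) ?_ K hK W hW (hRep W hW)
    (Y.fix ⊤) (H486.fixFC W Y hYG ⊤) ?_
  · intro a C v hv ι _
    exact mem_tensor_CC hp.out X v hv ι
  · intro hc j hj
    refine hvan ⊤ (fun h => bot_ne_top h.symm) (fun x _ y _ => hc x y) j ?_
    rwa [Group.rank_congr (Subgroup.topEquiv (G := W))]

/-- **Claim T** from its remaining inputs. -/
theorem key_of [hp : Fact p.Prime] (X : Ctx S) (hR : H40.ResGFC)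
    (hI : ∀ V : TClass, H40.Induce V) (hRep : RepLe p) (hN : NilStmt S p X)
    (hLin : ∀ t, H302.LinStage X p t) : Key S p (fun t _ _ v => VV X p t v) := by
  intro K hK W _ _ hW Y hY t hvan
  obtain ⟨k, hk⟩ := H40.claim_fact (hI (tclass X p t hp.out)) (H40.hypT_res hR)
    (eulStar_of X hN (hLin t) hRep K hK)
    (H56.sharpStar _ (H40.HypT S p K t) fun _ _ _ _ h => h.2.1) W Y ⟨hW, hY, hvan⟩
  obtain ⟨A, C, v, hv, hb⟩ := H933.bform_of_fact hk
  exact bForm_rn X hv hb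

end Vale.Agent.P241.H132
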