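import Vale.Agent.P241.H132.Key
import Vale.Agent.P241.H32.ResGFC
import Vale.Agent.P241.H83.StarQ
import Vale.Agent.P241.H302.RepLe
import Vale.Agent.P241.H256.LinStage
import Vale.Agent.P241.H796.Close

/-!
# P241: Claim T

`key` : Claim T, without hypotheses.
-/

open Vale.Agent.P251.St Vale.Agent.P251.St.SHCat Vale.Agent.P241.St Vale.Agent.P241.Final
  Vale.Agent.P241.R

namespace Vale.Agent.P241.H132

variable {T : SHCat} {S : Susp T} {p : ℕ}

/-- **Claim T.** -/
theorem key [hp : Fact p.Prime] (X : Ctx S) : Key S p (fun t _ _ v => VV X p t v) :=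
  key_of X H32.resGFC H83.induce (H302.repLe p) (H796.nilStmt X p) fun t => H256.linStage X p t

end Vale.Agent.P241.H132
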