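import Vale.Agent.P241.H808.Null
import Vale.Agent.P241.H733.Defs
import Vale.Agent.P251.St.ToLC

/-!
# P241: the `b`-form of Claim T from a factorisation

* `tPB W I k` : the cone point of `(star I)^k`.
* `sPB W I k` : the same for helper733's model.
* `bForm_of_fact` : `Fact V pt (star^(k+1)) (star^k) X` gives `BForm X k v` for a member `v` of `V`.
-/

open CategoryTheory MonoidalCategory Filter Topology OnePoint
open Vale.Agent.P251 Vale.Agent.P251.St Vale.Agent.P241.St
open Vale.Agent.P251.G Vale.Agent.P251.G.LC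

namespace Vale.Agent.P241.H132

open Final H808

/-- an equivariant homeomorphism as a pointed map -/
def PM.ofHomeo {G : Type} [Group G] {X Y : GSpace G} (e : X.carrier ≃ₜ Y.carrier)
    (he : ∀ (g : G) (x : X.carrier), e (g • x) = g • e x) : PM X Y :=
  PM.emb e e.symm e.continuous e.symm.continuous e.symm_apply_apply he

/-- the cone point of `(star I)^k` -/
def tPB (G : Type) [Group G] (I : Type) [Finite I] [MulAction G I] (k : ℕ) : PB G where
  B := Final.tp G I k
  b := tpZero G I k
  fix _ := rfl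

/-- the cone point of `(star I)^k` (helper733's model) -/
def sPB (G : Type) [Group G] (I : Type) [Finite I] [MulAction G I] (k : ℕ) : PB G where
  B := H733.starP G I k
  b := (0 : Fin k → H733.Star I)
  fix _ := rfl

section

variable {G : Type} [Group G] {V : TClass} {E X : GSpace G}

/-- change of the models of the stars -/
theorem fact_tPB {I J : Type} [Finite I] [Finite J] [MulAction G I] [MulAction G J] {k l : ℕ}
    (h : Fact V E (sPB G I k) (sPB G J l) X) : Fact V E (tPB G I k) (tPB G J l) X :=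
  let φ : PM (tPB G I k).B (sPB G I k).B :=
    PM.ofHomeo (X := Final.tp G I k) (Y := H733.starP G I k) (H733.tpHomeo I k) fun _ _ => rfl
  let χ : PM (sPB G J l).B (tPB G J l).B :=
    PM.ofHomeo (X := H733.starP G J l) (Y := Final.tp G J l) (H733.tpHomeo J l).symm
      fun _ _ => rfl
  Fact.map (γ' := tPB G I k) (β' := tPB G J l) φ rfl χ rfl h

end

section BForm

variable {W : Type} [Group W] [Finite W] {V : TClass} {X : GSpace W} {k : ℕ}

theorem bForm_of_fact' (h : Fact V (H808.pt W).B (tPB W W (k + 1)) (tPB W W k) X) :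
    ∃ (A C : LC) (v : A ⟶ C), V.mem v ∧
      BForm X k (P := ofLC A) (Q := ofLC C) (ofHom (X := ofLC A) (Y := ofLC C) v) := by
  obtain ⟨A, C, v, hv, ψ, hψ⟩ := h
  refine ⟨A, C, v, hv, ?_⟩
  let T1 := Final.tp W W (k + 1)
  let T0 := Final.tp W W k
  let s₁ : PM ((X.prod T1).prod (tr W A)) ((H808.pt W).B.prod (T1.prod (X.prod (tr W A)))) :=
    PM.emb (fun z => pr (H808.tp (A := 𝟙_ LC) ()) (pr (p2 (p1 z)) (pr (p1 (p1 z)) (p2 z))))
      (fun w => pr (pr (p1 (p2 (p2 w))) (p1 (p2 w))) (p2 (p2 (p2 w))))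
      (by fun_prop) (by fun_prop) (fun _ => rfl) (fun _ _ => rfl)
  let s₂ : PM (T0.prod (X.prod (tr W C))) ((X.prod T0).prod (tr W C)) :=
    PM.emb (fun z => pr (pr (p1 (p2 z)) (p1 z)) (p2 (p2 z)))
      (fun w => pr (p2 (p1 w)) (pr (p1 (p1 w)) (p2 w)))
      (by fun_prop) (by fun_prop) (fun _ => rfl) (fun _ _ => rfl)
  let b := s₁.comp (ψ.comp s₂)
  refine ⟨⟨b.at', continuous_app b.hom, app_infty b.hom⟩, fun g x => b.at_smul g x, ?_⟩
  intro x y
  induction y using OnePoint.rec with
  | infty =>
    have h1 : app v ∞ = ∞ := app_infty v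
    change b.at' (smash _ ∞) = smash _ (app v ∞)
    rw [h1, smash_infty_right, smash_infty_right]
    exact b.at_infty
  | coe y =>
    have h2 : b.at' (OnePoint.some (pr (pr x (tpZero W W (k + 1))) (show (tr W A).carrier from y)))
        = s₂.at' (sm (OnePoint.some (tpZero W W k)) (sm (OnePoint.some x)
          (vat v (OnePoint.some y)))) :=
      congrArg s₂.at' (hψ (H808.tp (A := 𝟙_ LC) ()) x y)
    refine Eq.trans h2 ?_
    change _ = smash _ (vat (G := W) v (OnePoint.some y))
    generalize vat (G := W) v (OnePoint.some y) = c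
    induction c using OnePoint.rec with
    | infty => rfl
    | coe c => rfl

/-- the `b`-form of `v ∘ f` -/
theorem bForm_precomp {P P' Q : Space} {v : Map P Q} (h : BForm X k v) (f : Map P' P)
    (v' : Map P' Q) (hv' : ∀ y, v'.toFun y = v.toFun (f.toFun y)) : BForm X k v' := by
  obtain ⟨b, hb, hb0⟩ := h
  let X1 : GSpace W := X.prod (Final.tp W W (k + 1))
  let φ : PM (X1.prod (GSpace.triv W P')) (X1.prod (GSpace.triv W P)) :=
    (PM.id X1).prod (trM W (A := toLC P') (C := toLC P) (toHom f))
  have hφ : ∀ (x : OnePoint X1.carrier) (y : P'.Pt),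
      φ.at' (LC.smash x y) = LC.smash x (f.toFun y) := fun x y => PM.at_prod (PM.id X1)
        (trM W (A := toLC P') (C := toLC P) (toHom f)) x y
  refine ⟨⟨b.toFun ∘ φ.at', b.cont.comp (continuous_app φ.hom), ?_⟩, ?_, ?_⟩
  · exact (congrArg b.toFun φ.at_infty).trans b.map_infty
  · intro g x
    exact (congrArg b.toFun (φ.at_smul g x)).trans (hb g (φ.at' x))
  · intro x y
    change b.toFun (φ.at' (LC.smash _ y)) = _
    rw [hφ, hv']
    exact hb0 x (f.toFun y)

end BForm

end Vale.Agent.P241.H132
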