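import Vale.Agent.P241.H399.Cone
import Vale.Agent.P241.H585.TpFC
import Vale.Agent.P241.H32.Triv

/-!
# P241: `XA X A m` is a finite `G`-cell space

`XA X A (m + 1)` is the mapping cone of the `G`-map `G/A × (X^A × T_W^m) → XA X A m`.
-/

open CategoryTheory MonoidalCategory Limits OnePoint Topology Filter MulAction
open Vale.Agent.P251.G Vale.Agent.P251.G.LC Vale.Agent.P251.St Vale.Agent.P241.St
open Vale.Agent.P241.Geo Vale.Agent.P241.H733 Vale.Agent.P241.Final Vale.Agent.P241.H137
  Vale.Agent.P241.H399 Vale.Agent.P241.H32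

noncomputable section

namespace Vale.Agent.P241.H132.Xa

/-! ### Translates of a closed piece -/

section ind

variable {G : Type} [Group G] (A : Subgroup G)

theorem ind_continuous {E F Y : Type} [TopologicalSpace E] [TopologicalSpace F]
    [TopologicalSpace Y] [MulAction G Y] [ContinuousConstSMul G Y] {lab : E → G ⧸ A}
    (hlab : IsLocallyConstant lab) {fib : E → F} (hfib : Continuous fib) {j : F → Y}
    (hj : Continuous j) : Continuous fun e => (lab e).out • j (fib e) := by
  rw [continuous_iff_continuousAt]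
  intro e
  have h1 : ContinuousAt (fun e' => (lab e).out • j (fib e')) e :=
    ((continuous_const_smul _).comp (hj.comp hfib)).continuousAt
  refine h1.congr ?_
  filter_upwards [(hlab.isOpen_fiber (lab e)).mem_nhds rfl] with e' he'
  have he'' : lab e' = lab e := he'
  rw [he'']

theorem ind_tendsto [Finite G] {E F Y : Type} [TopologicalSpace E] [TopologicalSpace F]
    [TopologicalSpace Y] [MulAction G Y] [ContinuousConstSMul G Y] {lab : E → G ⧸ A}
    {fib : E → F} (hfib : Tendsto fib (cocompact E) (cocompact F)) {j : F → Y}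
    (hj : Tendsto j (cocompact F) (cocompact Y)) :
    Tendsto (fun e => (lab e).out • j (fib e)) (cocompact E) (cocompact Y) := by
  intro s hs
  have h1 : ∀ a : G ⧸ A, ∀ᶠ f in cocompact F, a.out • j f ∈ s := fun a =>
    (((Homeomorph.smul a.out : Y ≃ₜ Y).isClosedEmbedding.tendsto_cocompact).comp hj) hs
  have h2 : ∀ᶠ f in cocompact F, ∀ a : G ⧸ A, a.out • j f ∈ s := eventually_all.2 h1
  exact (hfib.eventually h2).mono fun e he => he (lab e)

theorem out_smul (g : G) (a : G ⧸ A) : ∃ h : A, (g • a).out = g * a.out * h := by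
  have h1 : g • a = ((g * a.out : G) : G ⧸ A) := by
    conv_lhs => rw [← QuotientGroup.out_eq' a]
    rfl
  rw [h1]
  exact QuotientGroup.mk_out_eq_mul A (g * a.out)

theorem smul_out (g : G) (a : G ⧸ A) {Y : Type} [MulAction G Y] {y : Y} (hy : ∀ h ∈ A, h • y = y) :
    (g • a).out • y = g • a.out • y := by
  obtain ⟨h, hh⟩ := out_smul A g a
  rw [hh, mul_smul, mul_smul, hy h h.2]

end ind

variable {G : Type} [Group G] [Finite G] (X : GSpace G) (A : Subgroup G) (m : ℕ)

/-- `G/A × (X^A × T_W^m)` -/
abbrev DD : GSpace G := (dset G (G ⧸ A) 0).prod (GSpace.triv G (WX X A m).und)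

/-- the label -/
def lab (d : (DD X A m).carrier) : G ⧸ A := d.1.1

/-- the point of the fibre -/
def fib (d : (DD X A m).carrier) : (WX X A m).carrier := d.2

theorem fc_wx (hX : GFC G X) : Vale.Agent.P251.St.FC (WX X A m).und :=
  fc_prod (H486.fixFC G X hX A) (tpFC (Weyl A) m)

theorem gfc_DD (hX : GFC G X) : GFC G (DD X A m) :=
  gfc_xt (gfc_finset (G ⧸ A) 0) (fc_wx X A m hX)

variable {X A m}

theorem isLocallyConstant_lab : IsLocallyConstant (lab X A m) := by
  let _ : TopologicalSpace (G ⧸ A) := ⊥
  have _ : DiscreteTopology (G ⧸ A) := ⟨rfl⟩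
  have h : Continuous (lab X A m) := continuous_fst.comp continuous_fst
  exact (IsLocallyConstant.iff_continuous _).2 h

theorem continuous_fib : Continuous (fib X A m) := continuous_snd

theorem smul_j1_of_mem {h : G} (hh : h ∈ A) (w : (WX X A m).carrier) :
    h • j1 X A m w = j1 X A m w := by
  have h1 := j1_smul (X := X) (A := A) (m := m) ⟨h, Subgroup.le_normalizer hh⟩ w
  have h2 : QuotientGroup.mk' (A.subgroupOf (NA A)) ⟨h, Subgroup.le_normalizer hh⟩ = 1 := by
    rw [QuotientGroup.mk'_apply, QuotientGroup.eq_one_iff]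
    exact hh
  rw [h2, one_smul] at h1
  exact h1.symm

theorem tendsto_fib : Tendsto (fib X A m) (cocompact _) (cocompact _) := by
  let _ : TopologicalSpace (G ⧸ A) := ⊥
  have _ : DiscreteTopology (G ⧸ A) := ⟨rfl⟩
  have h1 : CompactSpace ((G ⧸ A) × (Fin 0 → ℝ)) := inferInstance
  have h : IsProperMap (Prod.snd : ((G ⧸ A) × (Fin 0 → ℝ)) × (WX X A m).carrier → _) :=
    isProperMap_snd_of_compactSpace
  exact (isProperMap_iff_tendsto_cocompact.1 h).2

/-! ### The attaching map -/

/-- the attaching map -/
def att (d : (DD X A m).carrier) : (xaG X A m).carrier :=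
  (lab X A m d).out • j1 X A m (fib X A m d)

theorem lab_smul (g : G) (d : (DD X A m).carrier) : lab X A m (g • d) = g • lab X A m d := rfl

theorem fib_smul (g : G) (d : (DD X A m).carrier) : fib X A m (g • d) = fib X A m d := rfl

theorem att_smul (g : G) (d : (DD X A m).carrier) : att (g • d) = g • att d := by
  unfold att
  rw [lab_smul, fib_smul]
  exact smul_out A g _ fun h hh => smul_j1_of_mem hh _

variable (X A m) in
/-- the attaching map in `LC` -/
def attL : L (DD X A m) ⟶ L (xaG X A m) :=
  ofProper (X := L (DD X A m)) (Y := L (xaG X A m)) att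
    (ind_continuous A isLocallyConstant_lab continuous_fib isClosedEmbedding_j1.continuous)
    (ind_tendsto A tendsto_fib isClosedEmbedding_j1.tendsto_cocompact)

theorem eqv_attL : Eqv (attL X A m) := by
  intro g
  apply hom_ext
  intro d
  rw [app_comp, app_comp, app_act_coe]
  exact congrArg (OnePoint.some (X := (xaG X A m).carrier)) (att_smul g d)

/-! ### The cone -/

/-- the last coordinate is on the ray of `1` -/
def fibS (w : (WX X A m).carrier) (r : NNReal) : (WX X A (m + 1)).carrier :=
  (w.1, (tpHomeo (Weyl A) (m + 1)).symm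
    (Fin.snoc (α := fun _ => H733.Star (Weyl A)) (cds X A m w) (Star.ray (1 : Weyl A) r)))

theorem pnt_fibS (w : (WX X A m).carrier) (r : NNReal) :
    pnt X A (m + 1) (fibS w r) = pnt X A m w := rfl

theorem cds_fibS (w : (WX X A m).carrier) (r : NNReal) :
    cds X A (m + 1) (fibS w r) =
      Fin.snoc (α := fun _ => H733.Star (Weyl A)) (cds X A m w) (Star.ray (1 : Weyl A) r) :=
  (tpHomeo (Weyl A) (m + 1)).apply_symm_apply _

theorem continuous_fibS :
    Continuous fun q : (WX X A m).carrier × NNReal => fibS q.1 q.2 := by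
  refine (continuous_fst.comp continuous_fst).prodMk
    ((tpHomeo (Weyl A) (m + 1)).symm.continuous.comp (continuous_pi fun i => ?_))
  refine Fin.lastCases ?_ (fun i' => ?_) i
  · simp only [Fin.snoc_last]
    exact (Star.continuous_ray _).comp continuous_snd
  · simp only [Fin.snoc_castSucc]
    exact (continuous_apply i').comp (continuous_cds.comp continuous_fst)

/-- the inverse of `fibS` -/
def unS (w : (WX X A (m + 1)).carrier) : (WX X A m).carrier :=
  (w.1, (tpHomeo (Weyl A) m).symm fun i => cds X A (m + 1) w i.castSucc)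

theorem unS_fibS (w : (WX X A m).carrier) (r : NNReal) : unS (fibS w r) = w := by
  refine wx_ext (X := X) (A := A) (m := m) rfl ?_
  have h1 : cds X A m (unS (fibS w r)) = fun i : Fin m =>
      cds X A (m + 1) (fibS w r) i.castSucc := (tpHomeo (Weyl A) m).apply_symm_apply _
  rw [h1, cds_fibS]
  funext i
  exact Fin.snoc_castSucc (α := fun _ => H733.Star (Weyl A)) _ _ i

theorem last_fibS (w : (WX X A m).carrier) (r : NNReal) :
    Real.toNNReal (cds X A (m + 1) (fibS w r) (Fin.last m) 1) = r := by
  rw [cds_fibS, Fin.snoc_last, Star.ray_self, Real.toNNReal_coe]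

theorem isClosedEmbedding_fibS :
    IsClosedEmbedding fun q : (WX X A m).carrier × NNReal => fibS q.1 q.2 := by
  refine Function.LeftInverse.isClosedEmbedding
    (f := fun w : (WX X A (m + 1)).carrier =>
      (unS w, Real.toNNReal (cds X A (m + 1) w (Fin.last m) 1))) ?_ ?_ continuous_fibS
  · intro q
    exact Prod.ext (unS_fibS q.1 q.2) (last_fibS q.1 q.2)
  · refine Continuous.prodMk (continuous_fst.prodMk
      ((tpHomeo (Weyl A) m).symm.continuous.comp (continuous_pi fun i =>
        (continuous_apply _).comp continuous_cds))) ?_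
    exact continuous_real_toNNReal.comp ((Star.continuous_eval _).comp
      ((continuous_apply _).comp continuous_cds))

/-- the map of the cone -/
def PhiF (d : (DD X A m).carrier) (r : NNReal) : (xaG X A (m + 1)).carrier :=
  (lab X A m d).out • j1 X A (m + 1) (fibS (fib X A m d) r)

theorem isProperMap_fib : IsProperMap (fib X A m) :=
  isProperMap_iff_tendsto_cocompact.2 ⟨continuous_fib, tendsto_fib⟩

theorem isProperMap_fibS : IsProperMap
    (fun p : (DD X A m).carrier × NNReal => fibS (fib X A m p.1) p.2) := by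
  have h : IsProperMap (Prod.map (fib X A m) (id : NNReal → NNReal)) :=
    isProperMap_fib.prodMap isProperMap_id
  exact isClosedEmbedding_fibS.isProperMap.comp h

variable (X A m) in
/-- the map of the cone in `LC` -/
def PhiL : L (xt (DD X A m) Hh) ⟶ L (xaG X A (m + 1)) :=
  ofProper (X := L (xt (DD X A m) Hh)) (Y := L (xaG X A (m + 1)))
    (fun p : (DD X A m).carrier × NNReal => PhiF p.1 p.2)
    (ind_continuous A (lab := fun p : (DD X A m).carrier × NNReal => lab X A m p.1)
      (isLocallyConstant_lab.comp_continuous continuous_fst)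
      isProperMap_fibS.continuous isClosedEmbedding_j1.continuous)
    (ind_tendsto A (lab := fun p : (DD X A m).carrier × NNReal => lab X A m p.1)
      (isProperMap_iff_tendsto_cocompact.1 isProperMap_fibS).2
      isClosedEmbedding_j1.tendsto_cocompact)

theorem PhiF_smul (g : G) (d : (DD X A m).carrier) (r : NNReal) :
    PhiF (g • d) r = g • PhiF d r := by
  unfold PhiF
  rw [lab_smul, fib_smul]
  exact smul_out A g _ fun h hh => smul_j1_of_mem hh _

theorem eqv_PhiL : Eqv (PhiL X A m) := by
  intro g
  apply hom_ext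
  intro d
  rw [app_comp, app_comp, app_act_coe]
  exact congrArg (OnePoint.some (X := (xaG X A (m + 1)).carrier)) (PhiF_smul g d.1 d.2)

theorem pushL_ray (r : NNReal) :
    pushL A (Star.ray (1 : Weyl A) r) = Star.ray ((1 : G) : G ⧸ A) r := by
  let _ := ftW A
  apply Star.ext
  intro a
  by_cases ha : a = ((1 : G) : G ⧸ A)
  · subst ha
    rw [Star.ray_self]
    have h1 : phi A (1 : Weyl A) = ((1 : G) : G ⧸ A) := rfl
    rw [← h1]
    exact (Star.map_apply_injective (phi_injective A) _ _).trans (Star.ray_self _ _)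
  · have h2 : Star.ray ((1 : G) : G ⧸ A) r a = 0 := by
      rw [Star.ray_apply, if_neg ha]
    rw [h2]
    by_contra hne
    obtain ⟨u, hu, hu', -⟩ := Star.exists_of_map_ne_zero (phi A) _ hne
    apply ha
    rw [Star.ray_apply] at hu'
    have h3 : u = 1 := by
      by_contra h4
      exact hu' (if_neg h4)
    rw [← hu, h3]
    rfl

omit [Finite G] in
theorem smul_ray' {I : Type} [MulAction G I] (g : G) (i : I) (t : NNReal) :
    g • Star.ray i t = Star.ray (g • i) t := by
  apply Star.ext
  intro j
  rw [Star.smul_apply, Star.ray_apply, Star.ray_apply]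
  by_cases h : g⁻¹ • j = i
  · rw [if_pos h, if_pos (inv_smul_eq_iff.mp h)]
  · rw [if_neg h, if_neg fun h' => h (inv_smul_eq_iff.mpr h')]

omit [Finite G] in
theorem out_smul_one (a : G ⧸ A) : a.out • ((1 : G) : G ⧸ A) = a := by
  conv_rhs => rw [← QuotientGroup.out_eq' a]
  change ((a.out * 1 : G) : G ⧸ A) = _
  rw [mul_one]

theorem snd_last_PhiF (d : (DD X A m).carrier) (r : NNReal) :
    XA.snd (PhiF d r) (Fin.last m) = Star.ray (lab X A m d) r := by
  unfold PhiF
  rw [XA.smul_snd, j1_snd, cds_fibS, Fin.snoc_last, pushL_ray, smul_ray', out_smul_one]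

theorem PhiF_zero (d : (DD X A m).carrier) : PhiF d 0 = XA.succ (att d) := by
  refine XA.ext rfl (funext fun i => ?_)
  refine Fin.lastCases ?_ (fun i' => ?_) i
  · rw [snd_last_PhiF, XA.succ_snd_last]
    exact Star.ray_zero _
  · rw [XA.succ_snd_castSucc]
    unfold PhiF att
    rw [XA.smul_snd, j1_snd, cds_fibS, Fin.snoc_castSucc, XA.smul_snd, j1_snd]

theorem PhiF_injective {d d' : (DD X A m).carrier} {r r' : NNReal} (hr : r ≠ 0)
    (h : PhiF d r = PhiF d' r') : d = d' ∧ r = r' := by
  have h1 : Star.ray (lab X A m d) r = Star.ray (lab X A m d') r' := by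
    rw [← snd_last_PhiF, ← snd_last_PhiF, h]
  have h2 : lab X A m d = lab X A m d' := by
    by_contra hne
    have h3 := congrArg (fun z : H733.Star (G ⧸ A) => z (lab X A m d)) h1
    change Star.ray (lab X A m d) r (lab X A m d) = Star.ray (lab X A m d') r' (lab X A m d) at h3
    rw [Star.ray_self, Star.ray_apply, if_neg hne] at h3
    exact hr (NNReal.coe_injective h3)
  rw [← h2] at h1
  have h3 : r = r' := Star.ray_injective _ h1
  unfold PhiF at h
  rw [← h2] at h
  have h4 := j1_injective (MulAction.injective _ h)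
  have h5 : fib X A m d = fib X A m d' := by
    rw [← unS_fibS (fib X A m d) r, h4, unS_fibS]
  refine ⟨Prod.ext (Prod.ext h2 (Subsingleton.elim _ _)) h5, h3⟩

theorem exists_PhiF {p : (xaG X A (m + 1)).carrier} (hp : XA.snd p (Fin.last m) ≠ 0) :
    ∃ (d : (DD X A m).carrier) (r : NNReal), r ≠ 0 ∧ PhiF d r = p := by
  obtain ⟨a, ha⟩ := Star.exists_ne_zero hp
  -- translate to the label `1`
  have h1 : XA.snd (a.out⁻¹ • p) (Fin.last m) ((1 : G) : G ⧸ A) ≠ 0 := by
    rw [XA.smul_snd, Star.smul_apply, inv_inv, out_smul_one]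
    exact ha
  obtain ⟨w, hw⟩ := exists_j1 (q := (a.out⁻¹ • p : (xaG X A (m + 1)).carrier)) h1
    (MulAction.stabilizer_quotient A)
  have h2 : pushL A (cds X A (m + 1) w (Fin.last m)) ((1 : G) : G ⧸ A) ≠ 0 := by
    rw [← j1_snd, hw]
    exact h1
  have h3 : cds X A (m + 1) w (Fin.last m) 1 ≠ 0 := by
    let _ := ftW A
    have h4 : phi A (1 : Weyl A) = ((1 : G) : G ⧸ A) := rfl
    rw [← h4] at h2
    have h5 : pushL A (cds X A (m + 1) w (Fin.last m)) (phi A 1) =
        cds X A (m + 1) w (Fin.last m) 1 := Star.map_apply_injective (phi_injective A) _ _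
    rwa [h5] at h2
  let r : NNReal := ⟨cds X A (m + 1) w (Fin.last m) 1, Star.nonneg _ _⟩
  have hr : r ≠ 0 := fun h => h3 (congrArg NNReal.toReal h)
  have h4 : Star.ray (1 : Weyl A) r = cds X A (m + 1) w (Fin.last m) := by
    apply Star.ext
    intro u
    by_cases hu : u = 1
    · subst hu
      exact Star.ray_self _ _
    · rw [Star.ray_apply, if_neg hu]
      by_contra hne
      exact hu (Star.eq_of_ne_zero _ (Ne.symm hne) h3)
  have h5 : fibS (unS w) r = w := by
    refine wx_ext (X := X) (A := A) (m := m + 1) rfl ?_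
    rw [cds_fibS]
    have h6 : cds X A m (unS w) = fun i : Fin m => cds X A (m + 1) w i.castSucc :=
      (tpHomeo (Weyl A) m).apply_symm_apply _
    rw [h6, h4]
    funext i
    refine Fin.lastCases ?_ (fun i' => ?_) i
    · rw [Fin.snoc_last]
    · rw [Fin.snoc_castSucc]
  refine ⟨((a, fun i => i.elim0), unS w), r, hr, ?_⟩
  unfold PhiF
  change a.out • j1 X A (m + 1) (fibS (unS w) r) = p
  rw [h5, hw, smul_inv_smul]

omit [Finite G] in
theorem app_gbase_coe (D : GSpace G) (d : D.carrier) :
    app (gbase D) (OnePoint.some d) = OnePoint.some ((d, (0 : NNReal)) : (xt D Hh).carrier) := by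
  change app (coneBase (L D) ≫ (pt D Hh).hom) _ = _
  rw [app_comp]
  exact congrArg (app (pt D Hh).hom) (app_coneBase (L D) (d : L D))

omit [Finite G] in
theorem mem_range_gbase (D : GSpace G) (d : D.carrier) (r : NNReal) :
    OnePoint.some ((d, r) : (xt D Hh).carrier) ∈ Set.range (app (gbase D)) ↔ r = 0 := by
  constructor
  · rintro ⟨u, hu⟩
    induction u using OnePoint.rec with
    | infty => exact absurd ((app_infty (gbase D)).symm.trans hu) (OnePoint.infty_ne_coe _)
    | coe u =>
      rw [app_gbase_coe] at hu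
      exact (congrArg Prod.snd (OnePoint.coe_injective hu)).symm
  · rintro rfl
    exact ⟨OnePoint.some d, app_gbase_coe D d⟩

theorem mem_range_succL (p : (xaG X A (m + 1)).carrier) :
    OnePoint.some p ∈ Set.range (app (succL X A m)) ↔ XA.snd p (Fin.last m) = 0 := by
  constructor
  · rintro ⟨u, hu⟩
    induction u using OnePoint.rec with
    | infty => exact absurd ((app_infty (succL X A m)).symm.trans hu) (OnePoint.infty_ne_coe _)
    | coe u =>
      have h : XA.succ u = p := OnePoint.coe_injective hu
      rw [← h]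
      exact XA.succ_snd_last u
  · intro h
    refine ⟨OnePoint.some (XA.pred p), congrArg OnePoint.some ?_⟩
    refine XA.ext rfl (funext fun i => ?_)
    refine Fin.lastCases ?_ (fun i' => ?_) i
    · rw [XA.succ_snd_last]
      exact h.symm
    · rw [XA.succ_snd_castSucc]
      rfl

theorem app_PhiL_coe (d : (DD X A m).carrier) (r : NNReal) :
    app (PhiL X A m) (OnePoint.some ((d, r) : (xt (DD X A m) Hh).carrier)) =
      OnePoint.some (PhiF d r) := rfl

theorem eq_zero_of_snd_PhiF (d : (DD X A m).carrier) (r : NNReal)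
    (h1 : XA.snd (PhiF d r) (Fin.last m) = 0) : r = 0 := by
  rw [snd_last_PhiF] at h1
  have h2 := congrArg (fun z : H733.Star (G ⧸ A) => z (lab X A m d)) h1
  change Star.ray (lab X A m d) r (lab X A m d) = 0 at h2
  rw [Star.ray_self] at h2
  exact NNReal.coe_injective h2

theorem isPushout_xa : IsPushout (gbase (DD X A m)) (attL X A m) (PhiL X A m) (succL X A m) := by
  refine isPushout_of ?_ ?_ ⟨?_, ?_, ?_⟩
  · apply hom_ext
    intro d
    rw [app_comp, app_comp]
    refine (congrArg (app (PhiL X A m)) (app_gbase_coe (DD X A m) d)).trans ?_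
    exact congrArg OnePoint.some (PhiF_zero d)
  · exact injective_app_ofClosed (Y := L (xaG X A (m + 1))) _ XA.isClosedEmbedding_succ
  · intro p hp
    induction p using OnePoint.rec with
    | infty => exact absurd ⟨∞, app_infty _⟩ hp
    | coe p =>
      intro h
      exact hp ((mem_range_gbase _ p.1 p.2).mpr
        (eq_zero_of_snd_PhiF p.1 p.2 ((mem_range_succL (PhiF p.1 p.2)).mp h)))
  · intro p hp p' hp' h
    induction p using OnePoint.rec with
    | infty => exact absurd ⟨∞, app_infty _⟩ hp
    | coe p =>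
      induction p' using OnePoint.rec with
      | infty => exact absurd ⟨∞, app_infty _⟩ hp'
      | coe p' =>
        obtain ⟨h2, h3⟩ := PhiF_injective (d := p.1) (d' := p'.1) (r := p.2) (r' := p'.2)
          (fun h0 => hp ((mem_range_gbase _ p.1 p.2).mpr h0)) (OnePoint.coe_injective h)
        exact congrArg OnePoint.some (Prod.ext h2 h3)
  · intro y hy
    induction y using OnePoint.rec with
    | infty => exact absurd ⟨∞, app_infty _⟩ hy
    | coe x =>
      have h0 : XA.snd x (Fin.last m) ≠ 0 := fun h => hy ((mem_range_succL x).mpr h)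
      obtain ⟨d, r, hr, h1⟩ := exists_PhiF h0
      refine ⟨OnePoint.some ((d, r) : (xt (DD X A m) Hh).carrier), fun h => hr ?_, ?_⟩
      · exact (mem_range_gbase _ d r).mp h
      · exact congrArg OnePoint.some h1

/-- `XA X A (m + 1)` is the mapping cone of the attaching map. -/
def isoXa : L (gcone (attL X A m) eqv_attL) ≅ L (xaG X A (m + 1)) :=
  (isPushout_gcone (attL X A m) eqv_attL).isoIsPushout _ _ isPushout_xa

theorem eqv_isoXa : Eqv (isoXa (X := X) (A := A) (m := m)).hom := by
  intro g
  have hk : gk (attL X A m) eqv_attL ≫ (isoXa (X := X) (A := A) (m := m)).hom = PhiL X A m :=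
    (isPushout_gcone (attL X A m) eqv_attL).inl_isoIsPushout_hom _ _ isPushout_xa
  have hj : gj (attL X A m) eqv_attL ≫ (isoXa (X := X) (A := A) (m := m)).hom = succL X A m :=
    (isPushout_gcone (attL X A m) eqv_attL).inr_isoIsPushout_hom _ _ isPushout_xa
  apply (isPushout_gcone (attL X A m) eqv_attL).hom_ext
  · rw [← Category.assoc, ← eqv_gk _ _ g, Category.assoc, hk, ← Category.assoc, hk]
    exact eqv_PhiL g
  · rw [← Category.assoc, ← eqv_gj _ _ g, Category.assoc, hj, ← Category.assoc, hj]
    exact eqv_succL X A m g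

/-! ### The theorem -/

theorem xa_zero_snd (p : (xaG X A 0).carrier) : XA.snd p = 0 := funext fun i => i.elim0

variable (X A) in
/-- `XA X A 0 = X` -/
def homeo0 : X.carrier ≃ₜ (xaG X A 0).carrier where
  toFun := XA.incl
  invFun := XA.fst
  left_inv _ := rfl
  right_inv p := (XA.eq_incl (xa_zero_snd p)).symm
  continuous_toFun := XA.isClosedEmbedding_incl.continuous
  continuous_invFun := XA.continuous_fst

theorem gfc_xaG (hX : GFC G X) : GFC G (xaG X A m) := by
  induction m with
  | zero => exact gfc_of_homeo hX (homeo0 X A) fun _ _ => rfl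
  | succ m ih =>
    refine GFC.of_iso' (gfc_gcone' (attL X A m) eqv_attL ih ?_) isoXa eqv_isoXa
    exact gfc_xt (gfc_DD X A m hX) fc_Rr

end Vale.Agent.P241.H132.Xa

namespace Vale.Agent.P241.H132

open Vale.Agent.P241.H399

/-- **`XA X A k` is a finite `G`-cell space.** -/
theorem xaGFC : XaGFC := fun _ _ _ _ _ _ hX => Xa.gfc_xaG hX

end Vale.Agent.P241.H132
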